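import Vale.Agent.Lib.P045R.NFCheck

namespace Vale.Agent.Lib.P045R.NFC

open Tr in
/-- The case trees, one for each of the 64 patterns. -/
def certList : List Tr := [
(N 0 0 (N 0 1 (N 2 2 L L) L) (N 0 0 (N 0 1 (N 2 2 L L) L) (N 0 0 (N 1 2 L L) (N 0 0 (N 1 2 L L) (N 0 2 L L))))),
(N 0 0 L (N 0 1 L (N 0 2 L L))),
(N 0 0 L (N 0 1 L (N 0 2 L L))),
(N 0 4 L (N 0 4 L (N 0 4 L (N 0 4 L (N 0 2 L L))))),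
(N 0 1 L (N 0 1 L (N 0 0 L (N 0 0 L L)))),
(N 0 2 L (N 0 2 L (N 0 2 L (N 0 2 L (N 0 2 L L))))),
(N 0 2 L (N 0 2 L (N 0 2 L (N 0 2 L (N 0 2 L L))))),
(N 0 0 (N 1 1 L L) (N 0 0 (N 1 1 L L) (N 0 1 (N 1 2 L L) (N 0 1 (N 1 2 L L) (N 0 1 (N 1 0 L L) (N 0 1 (N 1 0 L L) (N 0 0 (N 1 2 L L) (N 0 0 (N 1 2 L L) (N 0 2 L (N 0 2 L L)))))))))),
(N 0 1 L (N 0 1 L (N 0 0 L (N 0 0 L L)))),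
(N 0 3 L (N 0 3 L (N 0 3 L (N 0 3 L (N 0 2 L L))))),
(N 0 3 L (N 0 3 L (N 0 3 L (N 0 3 L (N 0 2 L L))))),
(N 0 0 (N 1 1 L L) (N 0 0 (N 1 1 L L) (N 0 1 (N 1 2 L L) (N 0 1 (N 1 2 L L) (N 0 1 (N 1 0 L L) (N 0 1 (N 1 0 L L) (N 0 0 (N 1 2 L L) (N 0 0 (N 1 2 L L) (N 0 2 L (N 0 2 L L)))))))))),
(N 0 2 L (N 0 1 (N 1 2 L L) (N 0 1 (N 1 2 L L) (N 0 2 L (N 0 0 (N 1 2 L L) (N 0 0 (N 1 2 L L) (N 0 2 L (N 0 2 L L)))))))),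
(N 0 4 L (N 0 5 L (N 0 5 L (N 0 1 L (N 0 4 L (N 0 5 L (N 0 5 L (N 0 0 L (N 0 2 L L))))))))),
(N 0 5 L (N 0 4 L (N 0 4 L (N 0 1 L (N 0 5 L (N 0 4 L (N 0 4 L (N 0 0 L (N 0 2 L L))))))))),
(N 0 4 L (N 0 1 (N 1 2 L L) (N 0 1 (N 1 2 L L) (N 0 1 (N 1 2 L L) (N 0 1 (N 1 2 L L) (N 0 1 (N 1 2 L L) (N 0 1 (N 1 2 L L) (N 0 4 L (N 0 0 (N 1 2 L L) (N 0 0 (N 1 2 L L) (N 0 0 (N 1 2 L L) (N 0 0 (N 1 2 L L) (N 0 0 (N 1 2 L L) (N 0 0 (N 1 2 L L) (N 0 2 L (N 0 2 L L)))))))))))))))),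
(N 0 2 L (N 0 2 L (N 0 0 L L))),
(N 0 0 L (N 0 1 L (N 0 1 L (N 0 0 L L)))),
(N 0 0 L (N 0 1 L (N 0 1 L (N 0 0 L L)))),
(N 0 0 (N 0 1 L L) (N 0 0 (N 0 1 L L) (N 0 1 L (N 0 1 L (N 0 1 L (N 0 1 L (N 0 0 L L))))))),
(N 0 1 L (N 0 1 L (N 0 1 L (N 0 1 L (N 0 1 L L))))),
(N 0 5 L (N 0 3 L (N 0 1 L (N 0 1 L (N 0 1 L (N 0 0 L L)))))),
(N 0 4 L (N 0 3 L (N 0 1 L (N 0 1 L (N 0 1 L (N 0 0 L L)))))),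
(N 0 0 (N 0 2 L L) (N 0 0 (N 0 2 L L) (N 0 4 L (N 0 5 L (N 0 1 L (N 0 1 L (N 0 1 L (N 0 1 L (N 0 1 L (N 0 0 L (N 0 0 L L))))))))))),
(N 0 1 L (N 0 1 L (N 0 1 L (N 0 1 L (N 0 1 L L))))),
(N 0 5 L (N 0 2 L (N 0 1 L (N 0 1 L (N 0 1 L (N 0 0 L L)))))),
(N 0 4 L (N 0 2 L (N 0 1 L (N 0 1 L (N 0 1 L (N 0 0 L L)))))),
(N 0 0 (N 0 3 L L) (N 0 0 (N 0 3 L L) (N 0 5 L (N 0 4 L (N 0 1 L (N 0 1 L (N 0 1 L (N 0 1 L (N 0 1 L (N 0 0 L (N 0 0 L L))))))))))),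
(N 0 2 L (N 0 5 L (N 0 4 L (N 0 1 L (N 0 1 L (N 0 1 L (N 0 1 L (N 0 0 L (N 0 0 L L))))))))),
(N 0 4 L (N 0 2 L (N 0 3 L (N 0 1 L (N 0 1 L (N 0 1 L (N 0 1 L (N 0 1 L (N 0 0 L L))))))))),
(N 0 5 L (N 0 2 L (N 0 3 L (N 0 1 L (N 0 1 L (N 0 1 L (N 0 1 L (N 0 1 L (N 0 0 L L))))))))),
(N 0 4 L (N 0 1 (N 1 0 L L) (N 0 1 (N 1 0 L L) (N 0 1 (N 1 0 L L) (N 0 1 (N 1 0 L L) (N 0 1 (N 1 0 L L) (N 0 1 (N 1 0 L L) (N 0 1 L (N 0 1 L (N 0 1 L (N 0 1 L (N 0 1 L (N 0 1 L (N 0 1 L (N 0 1 L (N 0 0 L (N 0 0 L L))))))))))))))))),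
(N 0 2 L (N 0 2 L (N 0 1 L L))),
(N 0 0 L (N 0 0 L (N 0 1 L (N 0 1 L L)))),
(N 0 0 L (N 0 0 L (N 0 1 L (N 0 1 L L)))),
(N 0 0 L (N 0 0 L (N 0 0 L (N 0 0 L (N 0 0 (N 0 1 L L) (N 0 0 (N 0 1 L L) (N 0 1 L L))))))),
(N 0 0 L (N 0 0 L (N 0 0 L (N 0 0 L (N 0 0 L L))))),
(N 0 0 L (N 0 0 L (N 0 0 L (N 0 5 L (N 0 3 L (N 0 1 L L)))))),
(N 0 0 L (N 0 0 L (N 0 0 L (N 0 4 L (N 0 3 L (N 0 1 L L)))))),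
(N 0 0 L (N 0 0 L (N 0 0 L (N 0 0 L (N 0 0 L (N 0 1 (N 0 2 L L) (N 0 1 (N 0 2 L L) (N 0 4 L (N 0 5 L (N 0 1 L (N 0 1 L L))))))))))),
(N 0 0 L (N 0 0 L (N 0 0 L (N 0 0 L (N 0 0 L L))))),
(N 0 0 L (N 0 0 L (N 0 0 L (N 0 5 L (N 0 2 L (N 0 1 L L)))))),
(N 0 0 L (N 0 0 L (N 0 0 L (N 0 4 L (N 0 2 L (N 0 1 L L)))))),
(N 0 0 L (N 0 0 L (N 0 0 L (N 0 0 L (N 0 0 L (N 0 1 (N 0 3 L L) (N 0 1 (N 0 3 L L) (N 0 5 L (N 0 4 L (N 0 1 L (N 0 1 L L))))))))))),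
(N 0 0 L (N 0 0 L (N 0 0 L (N 0 0 L (N 0 2 L (N 0 5 L (N 0 4 L (N 0 1 L (N 0 1 L L))))))))),
(N 0 0 L (N 0 0 L (N 0 0 L (N 0 0 L (N 0 4 L (N 0 2 L (N 0 3 L (N 0 0 L (N 0 1 L L))))))))),
(N 0 0 L (N 0 0 L (N 0 0 L (N 0 0 L (N 0 5 L (N 0 2 L (N 0 3 L (N 0 0 L (N 0 1 L L))))))))),
(N 0 0 L (N 0 0 L (N 0 0 L (N 0 0 L (N 0 0 L (N 0 0 L (N 0 0 L (N 0 0 L (N 0 4 L (N 0 0 (N 1 1 L L) (N 0 0 (N 1 1 L L) (N 0 0 (N 1 1 L L) (N 0 0 (N 1 1 L L) (N 0 0 (N 1 1 L L) (N 0 0 (N 1 1 L L) (N 0 1 L (N 0 1 L L))))))))))))))))),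
(N 0 0 L (N 0 0 L (N 0 0 L (N 0 0 L (N 0 0 L L))))),
(N 0 0 (N 1 5 L L) (N 0 5 L (N 0 0 (N 1 5 L L) (N 0 5 L (N 0 5 L (N 0 5 L (N 0 0 L L))))))),
(N 0 0 (N 1 4 L L) (N 0 4 L (N 0 0 (N 1 4 L L) (N 0 4 L (N 0 4 L (N 0 4 L (N 0 0 L L))))))),
(N 0 0 (N 0 1 L L) (N 0 0 (N 0 1 L L) (N 0 0 (N 1 1 L L) (N 0 0 (N 1 1 L L) (N 0 0 (N 0 1 L L) (N 0 0 (N 0 1 L L) (N 0 0 (N 1 1 L L) (N 0 0 (N 1 1 L L) (N 0 1 (N 1 0 L L) (N 0 1 (N 1 0 L L) (N 0 1 (N 1 0 L L) (N 0 1 (N 1 0 L L) (N 0 0 L L))))))))))))),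
(N 0 0 (N 1 2 L L) (N 0 0 (N 1 2 L L) (N 0 2 L (N 0 0 (N 0 1 (N 1 5 L L) L) (N 0 0 (N 0 1 (N 1 4 L L) L) (N 0 0 (N 0 1 (N 2 2 L L) L) (N 0 0 (N 0 1 (N 2 2 L L) L) (N 0 2 L (N 0 0 (N 1 2 L L) (N 0 0 (N 1 2 L L) L)))))))))),
(N 0 5 L (N 0 1 L (N 0 4 L (N 0 5 L (N 0 5 L (N 0 0 L (N 0 0 (N 1 1 L L) (N 0 4 L (N 0 5 L (N 0 1 (N 1 0 L L) (N 0 0 L L))))))))))),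
(N 0 4 L (N 0 1 L (N 0 5 L (N 0 4 L (N 0 4 L (N 0 0 L (N 0 0 (N 1 1 L L) (N 0 5 L (N 0 4 L (N 0 1 (N 1 0 L L) (N 0 0 L L))))))))))),
(N 0 1 (N 0 0 (N 1 5 L L) L) (N 0 1 (N 0 0 (N 1 4 L L) L) (N 0 1 (N 0 0 (N 1 5 L L) L) (N 0 1 (N 0 0 (N 1 4 L L) L) (N 0 4 L (N 0 1 (N 0 2 (N 1 2 L (N 2 1 L L)) L) (N 0 1 (N 0 2 (N 1 2 L (N 2 1 L L)) L) (N 0 0 (N 0 1 (N 1 5 L L) L) (N 0 0 (N 0 1 (N 1 4 L L) L) (N 0 0 (N 0 1 (N 1 5 L L) L) (N 0 0 (N 0 1 (N 1 4 L L) L) (N 0 4 (N 0 5 (N 1 1 L L) L) (N 0 5 (N 0 4 (N 1 1 L L) L) (N 0 4 L (N 0 0 (N 0 2 (N 1 2 L (N 2 0 L L)) L) (N 0 0 (N 0 2 (N 1 2 L (N 2 0 L L)) L) (N 0 4 (N 0 5 (N 1 0 L L) L) (N 0 5 (N 0 4 (N 1 0 L L) L) (N 0 0 L (N 0 0 L L)))))))))))))))))))),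
(N 0 0 (N 0 1 (N 1 5 L L) L) (N 0 0 (N 0 1 (N 1 4 L L) L) (N 0 0 (N 0 1 (N 2 2 L L) L) (N 0 0 (N 0 1 (N 2 2 L L) L) (N 0 0 (N 1 2 L L) (N 0 0 (N 1 2 L L) (N 0 2 L (N 0 0 (N 1 2 L L) (N 0 0 (N 1 2 L L) (N 0 2 L L)))))))))),
(N 0 5 L (N 0 0 L (N 0 0 (N 1 1 L L) (N 0 5 L (N 0 1 L (N 0 4 L (N 0 5 L (N 0 1 (N 1 0 L L) (N 0 4 L (N 0 5 L (N 0 0 L L))))))))))),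
(N 0 4 L (N 0 0 L (N 0 0 (N 1 1 L L) (N 0 4 L (N 0 1 L (N 0 5 L (N 0 4 L (N 0 1 (N 1 0 L L) (N 0 5 L (N 0 4 L (N 0 0 L L))))))))))),
(N 0 0 (N 0 1 (N 1 5 L L) L) (N 0 0 (N 0 1 (N 1 4 L L) L) (N 0 0 (N 0 1 (N 1 4 L L) L) (N 0 0 (N 0 1 (N 1 5 L L) L) (N 0 5 (N 0 4 (N 1 1 L L) L) (N 0 4 (N 0 5 (N 1 1 L L) L) (N 0 1 (N 0 0 (N 1 5 L L) L) (N 0 1 (N 0 0 (N 1 4 L L) L) (N 0 1 (N 0 0 (N 1 4 L L) L) (N 0 1 (N 0 0 (N 1 5 L L) L) (N 0 4 L (N 0 1 (N 0 2 (N 1 4 L (N 0 5 L L)) L) (N 0 1 (N 0 2 (N 1 5 L (N 0 4 L L)) L) (N 0 5 (N 0 4 (N 1 0 L L) L) (N 0 4 (N 0 5 (N 1 0 L L) L) (N 0 4 L (N 0 0 (N 0 2 (N 1 4 L (N 0 5 L L)) L) (N 0 0 (N 0 2 (N 1 5 L (N 0 4 L L)) L) (N 0 0 L (N 0 0 L L)))))))))))))))))))),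
(N 0 2 L (N 0 0 (N 0 5 (N 2 2 L L) L) (N 0 0 (N 0 4 (N 2 2 L L) L) (N 0 1 (N 0 5 (N 2 2 L (N 2 2 L L)) L) (N 0 1 (N 0 4 (N 2 2 L (N 2 2 L L)) L) (N 0 2 L (N 0 0 (N 0 5 (N 2 2 L L) L) (N 0 0 (N 0 4 (N 2 2 L L) L) (N 0 1 (N 0 5 (N 2 2 L (N 2 2 L L)) L) (N 0 1 (N 0 4 (N 2 2 L (N 2 2 L L)) L) (N 0 0 (N 0 5 (N 2 2 L (N 2 2 L L)) L) (N 0 0 (N 0 4 (N 2 2 L (N 2 2 L L)) L) (N 0 0 (N 0 5 (N 2 2 L (N 2 2 L L)) L) (N 0 0 (N 0 4 (N 2 2 L (N 2 2 L L)) L) (N 0 0 L (N 0 0 L L)))))))))))))))),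
(N 0 4 L (N 0 5 L (N 0 5 L (N 0 0 (N 1 5 L L) (N 0 5 L (N 0 1 (N 1 5 L L) (N 0 4 L (N 0 5 L (N 0 5 L (N 0 0 (N 1 5 L L) (N 0 5 L (N 0 1 (N 1 5 L L) (N 0 5 L (N 0 0 (N 1 5 L L) (N 0 5 L (N 0 0 (N 1 5 L L) (N 0 0 L L))))))))))))))))),
(N 0 5 L (N 0 4 L (N 0 4 L (N 0 0 (N 1 4 L L) (N 0 4 L (N 0 1 (N 1 4 L L) (N 0 5 L (N 0 4 L (N 0 4 L (N 0 0 (N 1 4 L L) (N 0 4 L (N 0 1 (N 1 4 L L) (N 0 4 L (N 0 0 (N 1 4 L L) (N 0 4 L (N 0 0 (N 1 4 L L) (N 0 0 L L))))))))))))))))),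
(N 0 4 L (N 0 0 (N 0 1 (N 1 2 L (N 1 2 (N 3 5 (N 0 3 (N 1 3 (N 3 0 L (N 3 0 L L)) L) L) L) L)) L) (N 0 0 (N 0 1 (N 1 2 L (N 1 2 (N 3 4 (N 0 3 (N 1 3 (N 3 0 L (N 3 0 L L)) L) L) L) L)) L) (N 0 1 (N 0 0 (N 1 3 L (N 1 3 (N 3 5 (N 0 2 (N 1 2 (N 3 1 L (N 3 1 L L)) L) L) L) L)) L) (N 0 1 (N 0 0 (N 1 3 L (N 1 3 (N 3 4 (N 0 2 (N 1 2 (N 3 1 L (N 3 1 L L)) L) L) L) L)) L) (N 0 0 (N 0 1 (N 2 4 L L) (N 0 4 (N 0 5 (N 3 0 L L) L) L)) (N 0 0 (N 0 1 (N 2 5 L L) (N 0 5 (N 0 4 (N 3 0 L L) L) L)) (N 0 2 (N 1 4 L (N 1 1 (N 2 0 L L) L)) (N 0 2 (N 1 4 L (N 1 1 (N 2 0 L L) L)) (N 0 4 (N 0 3 (N 1 5 L (N 0 5 (N 1 3 (N 4 1 (N 0 2 (N 6 0 L L) L) L) (N 1 3 (N 4 1 (N 0 2 (N 6 0 L L) L) L) L)) L)) L) (N 0 5 (N 0 3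 (N 1 4 L (N 0 4 (N 1 3 (N 4 1 (N 0 2 (N 6 0 L L) L) L) (N 1 3 (N 4 1 (N 0 2 (N 6 0 L L) L) L) L)) L)) L) (N 0 4 L (N 0 1 (N 0 0 (N 1 2 L (N 1 2 (N 3 5 (N 0 3 (N 1 3 (N 3 1 L (N 3 1 L L)) L) L) L) L)) L) (N 0 1 (N 0 0 (N 1 2 L (N 1 2 (N 3 4 (N 0 3 (N 1 3 (N 3 1 L (N 3 1 L L)) L) L) L) L)) L) (N 0 0 (N 0 1 (N 1 3 L (N 1 3 (N 3 5 (N 0 2 (N 1 2 (N 3 0 L (N 3 0 L L)) L) L) L) L)) L) (N 0 0 (N 0 1 (N 1 3 L (N 1 3 (N 3 4 (N 0 2 (N 1 2 (N 3 0 L (N 3 0 L L)) L) L) L) L)) L) (N 0 0 (N 0 1 (N 2 5 L L) (N 0 5 (N 0 4 (N 3 0 L L) L) L)) (N 0 0 (N 0 1 (N 2 4 L L) (N 0 4 (N 0 5 (N 3 0 L L) L) L)) (N 0 2 (N 1 0 (N 2 5 L L) (N 1 0 L L)) (N 0 2 (N 1 0 (N 2 4 L L) (N 1 0 L L)) (N 0 5 (N 0 2 (N 1 4 L (N 0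 4 (N 1 2 (N 4 1 (N 0 3 (N 6 0 L L) L) L) (N 1 2 (N 4 1 (N 0 3 (N 6 0 L L) L) L) L)) L)) L) (N 0 4 (N 0 2 (N 1 5 L (N 0 5 (N 1 2 (N 4 1 (N 0 3 (N 6 0 L L) L) L) (N 1 2 (N 4 1 (N 0 3 (N 6 0 L L) L) L) L)) L)) L) (N 0 2 (N 1 4 L (N 1 0 (N 2 1 L L) L)) (N 0 2 (N 1 4 L (N 1 0 (N 2 1 L L) L)) (N 0 4 (N 0 3 (N 1 5 L (N 0 5 (N 1 3 (N 4 0 (N 0 2 (N 6 1 L L) L) L) (N 1 3 (N 4 0 (N 0 2 (N 6 1 L L) L) L) L)) L)) L) (N 0 5 (N 0 3 (N 1 4 L (N 0 4 (N 1 3 (N 4 0 (N 0 2 (N 6 1 L L) L) L) (N 1 3 (N 4 0 (N 0 2 (N 6 1 L L) L) L) L)) L)) L) (N 0 2 (N 1 1 (N 2 5 L L) (N 1 0 L L)) (N 0 2 (N 1 1 (N 2 4 L L) (N 1 0 L L)) (N 0 5 (N 0 2 (N 1 4 L (N 0 4 (N 1 2 (N 4 0 (N 0 3 (N 6 1 L L) L) L) (N 1 2 (N 4 0 (N 0 3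 (N 6 1 L L) L) L) L)) L)) L) (N 0 4 (N 0 2 (N 1 5 L (N 0 5 (N 1 2 (N 4 0 (N 0 3 (N 6 1 L L) L) L) (N 1 2 (N 4 0 (N 0 3 (N 6 1 L L) L) L) L)) L)) L) (N 0 0 L (N 0 0 L L))))))))))))))))))))))))))))))))]

end Vale.Agent.Lib.P045R.NFC
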